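import Vale.Agent.P046.Contract.Link

/-!
# The contraction for the random walk of a finite graph

`adj` is a 0-1 symmetric matrix (the link of a vertex), `deg` its row sums.
-/

namespace Vale.Agent.P046

open Finset Matrix

variable {X : Type*} [Fintype X]

/-- The random-walk kernel of a weighted graph. -/
noncomputable def walk (adj : Matrix X X ℝ) : Matrix X X ℝ :=
  Matrix.of fun x y => adj x y / ∑ z, adj x z

variable [DecidableEq X] in
lemma walk_cube (adj : Matrix X X ℝ) (x y : X) :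
    (walk adj ^ 3) x y = ∑ a, ∑ b,
      adj x a * adj a b * adj b y / ((∑ z, adj x z) * (∑ z, adj a z) * (∑ z, adj b z)) := by
  conv_lhs => simp only [pow_succ, pow_zero, one_mul, Matrix.mul_apply, sum_mul]
  rw [sum_comm]
  refine sum_congr rfl fun a _ => sum_congr rfl fun b _ => ?_
  simp only [walk, Matrix.of_apply]
  rw [div_mul_div_comm, div_mul_div_comm]


/-- Absolute row sums of the centred cube of the walk, from degrees and rooted 3-walk counts. -/
theorem row_centred_walk_cube_le [DecidableEq X] [Nonempty X] (adj : Matrix X X ℝ)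
    (h0 : ∀ x y, 0 ≤ adj x y)
    {D ε η : ℝ} (hD : 0 < D) (hε0 : 0 ≤ ε) (hε : ε ≤ 1 / 8) (hη0 : 0 ≤ η)
    (hdeg : ∀ x, |(∑ z, adj x z) - D| ≤ ε * D)
    (hwalk : ∀ x y, |(∑ a, ∑ b, adj x a * adj a b * adj b y) - D ^ 3 / Fintype.card X|
      ≤ η * (D ^ 3 / Fintype.card X)) (x : X) :
    ∑ y, |centred (walk adj ^ 3) (fun z => ∑ w, adj z w) x y| ≤ 2 * η + 9 * ε := by
  set π : X → ℝ := fun x => ∑ z, adj x z with hπdef
  have hlo : ∀ x, (1 - ε) * D ≤ π x := fun x => by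
    have := (abs_le.1 (hdeg x)).1
    simp only [hπdef]
    linarith
  have hhi : ∀ x, π x ≤ (1 + ε) * D := fun x => by
    have := (abs_le.1 (hdeg x)).2
    simp only [hπdef]
    linarith
  have hl : 0 < (1 - ε) * D := mul_pos (by linarith) hD
  have hπ : ∀ x, 0 < π x := fun x => hl.trans_le (hlo x)
  have hZ : 0 < ∑ z, π z := sum_pos (fun x _ => hπ x) univ_nonempty
  set N : ℝ := (Fintype.card X : ℝ) with hN
  have hN0 : 0 < N := by rw [hN]; exact_mod_cast Fintype.card_pos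
  suffices h : ∀ y, |centred (walk adj ^ 3) π x y| ≤ (2 * η + 9 * ε) / N by
    calc ∑ y, |centred (walk adj ^ 3) π x y| ≤ ∑ _y : X, (2 * η + 9 * ε) / N :=
          sum_le_sum fun y _ => h y
      _ = 2 * η + 9 * ε := by
          rw [sum_const, card_univ, nsmul_eq_mul, mul_div_cancel₀ _ hN0.ne']
  intro y
  -- bounds for the stationary weight
  have hZlo : N * ((1 - ε) * D) ≤ ∑ z, π z := by
    calc N * ((1 - ε) * D) = ∑ _z : X, (1 - ε) * D := by simp [hN, sum_const, card_univ]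
      _ ≤ _ := sum_le_sum fun z _ => hlo z
  have hZhi : ∑ z, π z ≤ N * ((1 + ε) * D) := by
    calc ∑ z, π z ≤ ∑ _z : X, (1 + ε) * D := sum_le_sum fun z _ => hhi z
      _ = _ := by simp [hN, sum_const, card_univ]
  have hu : π y / ∑ z, π z ≤ (1 + ε) / (1 - ε) / N := by
    calc π y / ∑ z, π z ≤ ((1 + ε) * D) / (N * ((1 - ε) * D)) :=
          div_le_div₀ (mul_pos (by linarith) hD).le (hhi y) (mul_pos hN0 hl) hZlo
      _ = _ := by field_simp
  have hv : (1 - ε) / (1 + ε) / N ≤ π y / ∑ z, π z := by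
    calc (1 - ε) / (1 + ε) / N = ((1 - ε) * D) / (N * ((1 + ε) * D)) := by field_simp
      _ ≤ _ := div_le_div₀ (hπ y).le (hlo y) hZ hZhi
  -- bounds for the 3-step kernel
  set W := ∑ a, ∑ b, adj x a * adj a b * adj b y
  have hW : -(η * (D ^ 3 / N)) ≤ W - D ^ 3 / N ∧ W - D ^ 3 / N ≤ η * (D ^ 3 / N) :=
    abs_le.1 (hwalk x y)
  have hk1 : (walk adj ^ 3) x y ≤ W / ((1 - ε) * D) ^ 3 := by
    rw [walk_cube, sum_div]
    refine sum_le_sum fun a _ => ?_
    rw [sum_div]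
    refine sum_le_sum fun b _ => div_le_div_of_nonneg_left ?_ (by positivity) ?_
    · exact mul_nonneg (mul_nonneg (h0 _ _) (h0 _ _)) (h0 _ _)
    · calc ((1 - ε) * D) ^ 3 = (1 - ε) * D * ((1 - ε) * D) * ((1 - ε) * D) := by ring
        _ ≤ π x * π a * π b :=
            mul_le_mul (mul_le_mul (hlo x) (hlo a) hl.le (hπ x).le) (hlo b) hl.le
              (mul_nonneg (hπ x).le (hπ a).le)
  have hk2 : W / ((1 + ε) * D) ^ 3 ≤ (walk adj ^ 3) x y := by
    rw [walk_cube, sum_div]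
    refine sum_le_sum fun a _ => ?_
    rw [sum_div]
    refine sum_le_sum fun b _ => div_le_div_of_nonneg_left ?_
      (mul_pos (mul_pos (hπ x) (hπ a)) (hπ b)) ?_
    · exact mul_nonneg (mul_nonneg (h0 _ _) (h0 _ _)) (h0 _ _)
    · have h1 : 0 ≤ (1 + ε) * D := by positivity
      calc π x * π a * π b ≤ (1 + ε) * D * ((1 + ε) * D) * ((1 + ε) * D) :=
            mul_le_mul (mul_le_mul (hhi x) (hhi a) (hπ a).le h1) (hhi b) (hπ b).le
              (mul_nonneg h1 h1)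
        _ = _ := by ring
  have hk1' : (walk adj ^ 3) x y ≤ (1 + η) / (1 - ε) ^ 3 / N := by
    refine hk1.trans (le_of_le_of_eq (div_le_div_of_nonneg_right
      (b := (1 + η) * (D ^ 3 / N)) (by linarith [hW.2]) (by positivity)) ?_)
    rw [mul_pow]; field_simp
  have hk2' : (1 - η) / (1 + ε) ^ 3 / N ≤ (walk adj ^ 3) x y := by
    refine le_trans (le_of_eq_of_le ?_ (div_le_div_of_nonneg_right
      (a := (1 - η) * (D ^ 3 / N)) (by linarith [hW.1]) (by positivity))) hk2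
    rw [mul_pow]; field_simp
  have n1 : (1 + η) / (1 - ε) ^ 3 ≤ 1 + 2 * η + 6 * ε := by
    rw [div_le_iff₀ (pow_pos (by linarith) 3)]
    have h3 : 1 - 3 * ε ≤ (1 - ε) ^ 3 := by
      nlinarith [mul_nonneg (sq_nonneg ε) (show (0:ℝ) ≤ 3 - ε by linarith)]
    nlinarith
  have n2 : 1 - 2 * η - 6 * ε ≤ (1 - η) / (1 + ε) ^ 3 := by
    rw [le_div_iff₀ (by positivity)]
    have h3 : 1 + 3 * ε ≤ (1 + ε) ^ 3 := by
      nlinarith [mul_nonneg (sq_nonneg ε) (show (0:ℝ) ≤ 3 + ε by linarith)]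
    have h4 : (1 + ε) ^ 3 ≤ 1 + 4 * ε := by
      nlinarith [mul_nonneg hε0 (show (0:ℝ) ≤ 1 - 3 * ε - ε ^ 2 by nlinarith)]
    have h5 : (1 - 6 * ε) * (1 + ε) ^ 3 ≤ 1 :=
      (mul_le_mul_of_nonneg_left h4 (by linarith)).trans (by nlinarith)
    have h6 : 0 ≤ η * ((1 + ε) ^ 3 - 1) := mul_nonneg hη0 (by linarith)
    linarith
  have n3 : (1 + ε) / (1 - ε) ≤ 1 + 3 * ε := by
    rw [div_le_iff₀ (by linarith)]; nlinarith
  have n4 : 1 - 3 * ε ≤ (1 - ε) / (1 + ε) := by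
    rw [le_div_iff₀ (by linarith)]; nlinarith
  simp only [centred, Matrix.of_apply]
  rw [abs_le]
  have d1 := div_le_div_of_nonneg_right n1 hN0.le
  have d2 := div_le_div_of_nonneg_right n2 hN0.le
  have d3 := div_le_div_of_nonneg_right n3 hN0.le
  have d4 := div_le_div_of_nonneg_right n4 hN0.le
  have e1 : (1 + 2 * η + 6 * ε) / N - (1 - 3 * ε) / N = (2 * η + 9 * ε) / N := by
    rw [← sub_div]; ring_nf
  have e2 : (1 + 3 * ε) / N - (1 - 2 * η - 6 * ε) / N = (2 * η + 9 * ε) / N := by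
    rw [← sub_div]; ring_nf
  constructor <;> linarith

/-- The walk of a graph with positive degrees is stochastic and reversible. -/
lemma walk_facts (adj : Matrix X X ℝ) (hs : ∀ x y, adj x y = adj y x)
    (hπ : ∀ x, 0 < ∑ z, adj x z) :
    (∀ x y, (∑ z, adj x z) * walk adj x y = (∑ z, adj y z) * walk adj y x) ∧
      ∀ x, ∑ y, walk adj x y = 1 := by
  refine ⟨fun x y => ?_, fun x => ?_⟩
  · simp only [walk, Matrix.of_apply]
    rw [mul_div_cancel₀ _ (hπ x).ne', mul_div_cancel₀ _ (hπ y).ne', hs]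
  · simp only [walk, Matrix.of_apply, ← sum_div]
    exact div_self (hπ x).ne'

/-- Contraction of the centred averaging over neighbours, with the rooted counts of 3-walks
as the only input: degrees within `ε` of `D` and 3-walk counts within `η` of `D^3 / |X|`. -/
theorem norm_centred_walk_le [DecidableEq X] [Nonempty X] (adj : Matrix X X ℝ)
    (h0 : ∀ x y, 0 ≤ adj x y) (hs : ∀ x y, adj x y = adj y x)
    {D ε η A : ℝ} (hD : 0 < D) (hε0 : 0 ≤ ε) (hε : ε ≤ 1 / 8) (hη0 : 0 ≤ η)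
    (hdeg : ∀ x, |(∑ z, adj x z) - D| ≤ ε * D)
    (hwalk : ∀ x y, |(∑ a, ∑ b, adj x a * adj a b * adj b y) - D ^ 3 / Fintype.card X|
      ≤ η * (D ^ 3 / Fintype.card X))
    (hA : 2 * η + 9 * ε ≤ A ^ 3) {p : ℕ} (hp : 3 ≤ p) (f : X → ℝ) :
    ∑ x, (∑ z, adj x z) *
        |(centred (walk adj) (fun x => ∑ z, adj x z) *ᵥ f) x| ^ p
      ≤ 2 * 8 ^ p * A ^ 2 * ∑ x, (∑ z, adj x z) * |f x| ^ p := by
  have hπ : ∀ x, 0 < ∑ z, adj x z := fun x => by
    nlinarith [(abs_le.1 (hdeg x)).1]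
  obtain ⟨hrev, hrow⟩ := walk_facts adj hs hπ
  exact norm_centred_le (walk adj) _ (fun x => (hπ x).le)
    (sum_pos (fun x _ => hπ x) univ_nonempty) hrev
    (fun x y => div_nonneg (h0 x y) (hπ x).le) hrow
    (fun x => (row_centred_walk_cube_le adj h0 hD hε0 hε hη0 hdeg hwalk x).trans hA) hp f

/-- The weighted L2 form of `norm_centred_walk_le`. -/
theorem sq_norm_centred_walk_le [DecidableEq X] [Nonempty X] (adj : Matrix X X ℝ)
    (h0 : ∀ x y, 0 ≤ adj x y) (hs : ∀ x y, adj x y = adj y x)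
    {D ε η A : ℝ} (hD : 0 < D) (hε0 : 0 ≤ ε) (hε : ε ≤ 1 / 8) (hη0 : 0 ≤ η)
    (hdeg : ∀ x, |(∑ z, adj x z) - D| ≤ ε * D)
    (hwalk : ∀ x y, |(∑ a, ∑ b, adj x a * adj a b * adj b y) - D ^ 3 / Fintype.card X|
      ≤ η * (D ^ 3 / Fintype.card X))
    (hA : 2 * η + 9 * ε ≤ A ^ 3) (f : X → ℝ) :
    ∑ x, (∑ z, adj x z) * (centred (walk adj) (fun x => ∑ z, adj x z) *ᵥ f) x ^ 2
      ≤ A ^ 2 * ∑ x, (∑ z, adj x z) * f x ^ 2 := by
  have hπ : ∀ x, 0 < ∑ z, adj x z := fun x => by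
    nlinarith [(abs_le.1 (hdeg x)).1]
  obtain ⟨hrev, hrow⟩ := walk_facts adj hs hπ
  exact sq_norm_centred_le (walk adj) _ (fun x => (hπ x).le)
    (sum_pos (fun x _ => hπ x) univ_nonempty) hrev hrow
    (fun x => (row_centred_walk_cube_le adj h0 hD hε0 hε hη0 hdeg hwalk x).trans hA) f

end Vale.Agent.P046
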