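import Vale.Agent.P046.Trajectory
import Vale.Agent.P046.Contract.Walk

/-!
# The two centred averaging operators of Phase I on a graph state

`Π z (b;c) = P z (b;c) - S z (b)`: centred averaging at the pivot `b` over the flags at `(b;c)`;
`vertCentred`: the codegree-weighted average over neighbours, centred by its stationary mean.
-/

namespace Vale.Agent.P046.Contract

open Finset Matrix

variable {n : ℕ}

/-- Neighbours of `b`. -/
def nbr (E : Finset (Finset (Fin n))) (b : Fin n) : Finset (Fin n) :=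
  univ.filter fun d => ({b, d} : Finset (Fin n)) ∈ E

/-- Third vertices of the triangles at the edge `bc` (given that `bc` is an edge). -/
def flags (E : Finset (Finset (Fin n))) (b c : Fin n) : Finset (Fin n) :=
  univ.filter fun d => ({b, d} : Finset (Fin n)) ∈ E ∧ ({c, d} : Finset (Fin n)) ∈ E

/-- Number of walks of length 3 from `x` to `y` in the link of `b`. -/
def linkWalks (E : Finset (Finset (Fin n))) (b x y : Fin n) : ℕ :=
  ((flags E b x ×ˢ flags E b y).filter fun q => ({q.1, q.2} : Finset (Fin n)) ∈ E).card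

/-- Number of walks of length 3 from `x` to `y`. -/
def graphWalks (E : Finset (Finset (Fin n))) (x y : Fin n) : ℕ :=
  ((nbr E x ×ˢ nbr E y).filter fun q => ({q.1, q.2} : Finset (Fin n)) ∈ E).card

/-- Average over the flags at `(b;c)`. -/
noncomputable def pivAvg (E : Finset (Finset (Fin n))) (z : Fin n → Fin n → ℝ) (b c : Fin n) : ℝ :=
  (∑ d ∈ flags E b c, z b d) / (flags E b c).card

/-- Average over all flags at the pivot `b`. -/
noncomputable def pivProj (E : Finset (Finset (Fin n))) (z : Fin n → Fin n → ℝ) (b : Fin n) : ℝ :=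
  (∑ c ∈ nbr E b, ((flags E b c).card : ℝ) * z b c) / ∑ c ∈ nbr E b, ((flags E b c).card : ℝ)

/-- The centred averaging at the pivot. -/
noncomputable def pivCentred (E : Finset (Finset (Fin n))) (z : Fin n → Fin n → ℝ)
    (b c : Fin n) : ℝ :=
  pivAvg E z b c - pivProj E z b

/-- Average of a vertex function over the flags at the vertex `b`. -/
noncomputable def vertAvg (E : Finset (Finset (Fin n))) (u : Fin n → ℝ) (b : Fin n) : ℝ :=
  (∑ c ∈ nbr E b, ((flags E b c).card : ℝ) * u c) / ∑ c ∈ nbr E b, ((flags E b c).card : ℝ)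

/-- Average of a vertex function over all flags. -/
noncomputable def vertProj (E : Finset (Finset (Fin n))) (u : Fin n → ℝ) : ℝ :=
  (∑ b, (∑ c ∈ nbr E b, ((flags E b c).card : ℝ)) * u b) /
    ∑ b, ∑ c ∈ nbr E b, ((flags E b c).card : ℝ)

lemma mem_nbr {E : Finset (Finset (Fin n))} {b d : Fin n} :
    d ∈ nbr E b ↔ ({b, d} : Finset (Fin n)) ∈ E := by simp [nbr]

lemma mem_flags {E : Finset (Finset (Fin n))} {b c d : Fin n} :
    d ∈ flags E b c ↔ d ∈ nbr E b ∧ ({c, d} : Finset (Fin n)) ∈ E := by simp [flags, nbr]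

lemma flags_comm (E : Finset (Finset (Fin n))) (b c : Fin n) : flags E b c = flags E c b := by
  ext d; simp [flags, and_comm]

/-- Rewriting `centred (walk adj)` as an average minus a projection. -/
lemma centred_walk_mulVec {X : Type*} [Fintype X] (adj : Matrix X X ℝ) (f : X → ℝ) (x : X) :
    (centred (walk adj) (fun y => ∑ z, adj y z) *ᵥ f) x =
      (∑ y, adj x y * f y) / (∑ z, adj x z)
        - (∑ y, (∑ z, adj y z) * f y) / ∑ y, ∑ z, adj y z := by
  rw [sum_div univ (fun y => adj x y * f y), sum_div univ (fun y => (∑ z, adj y z) * f y),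
    ← sum_sub_distrib]
  simp only [Matrix.mulVec, dotProduct, centred, walk, Matrix.of_apply]
  exact sum_congr rfl fun y _ => by ring

/-- Passing from the stationary weights to the uniform ones. -/
lemma unweighted_le {X : Type*} (s : Finset X) (π F G : X → ℝ) {μ ε C : ℝ} (hμ : 0 < μ)
    (hε : ε ≤ 1 / 8) (hC : 0 ≤ C) (hπ : ∀ x ∈ s, |π x - μ| ≤ ε * μ) (hF : ∀ x ∈ s, 0 ≤ F x)
    (hG : ∀ x ∈ s, 0 ≤ G x) (h : ∑ x ∈ s, π x * F x ≤ C * ∑ x ∈ s, π x * G x) :
    ∑ x ∈ s, F x ≤ 2 * C * ∑ x ∈ s, G x := by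
  have hεμ : ε * μ ≤ 1 / 8 * μ := mul_le_mul_of_nonneg_right hε hμ.le
  have h1 : 7 / 8 * μ * ∑ x ∈ s, F x ≤ ∑ x ∈ s, π x * F x := by
    rw [mul_sum]
    exact sum_le_sum fun x hx => mul_le_mul_of_nonneg_right
      (by linarith [(abs_le.1 (hπ x hx)).1]) (hF x hx)
  have h2 : ∑ x ∈ s, π x * G x ≤ 9 / 8 * μ * ∑ x ∈ s, G x := by
    rw [mul_sum]
    exact sum_le_sum fun x hx => mul_le_mul_of_nonneg_right
      (by linarith [(abs_le.1 (hπ x hx)).2]) (hG x hx)
  have h3 : 7 / 8 * μ * ∑ x ∈ s, F x ≤ 7 / 8 * μ * (2 * C * ∑ x ∈ s, G x) := by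
    have h4 : 0 ≤ μ * (C * ∑ x ∈ s, G x) := mul_nonneg hμ.le (mul_nonneg hC (sum_nonneg hG))
    nlinarith [mul_le_mul_of_nonneg_left h2 hC]
  exact le_of_mul_le_mul_left h3 (by linarith)

/-- Contraction at one pivot. -/
theorem pivCentred_le_at (E : Finset (Finset (Fin n))) (b : Fin n) {μ ε η A : ℝ}
    (hμ : 0 < μ) (hε0 : 0 ≤ ε) (hε : ε ≤ 1 / 8) (hη0 : 0 ≤ η)
    (hdeg : ∀ c ∈ nbr E b, |((flags E b c).card : ℝ) - μ| ≤ ε * μ)
    (hwalk : ∀ x ∈ nbr E b, ∀ y ∈ nbr E b,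
      |(linkWalks E b x y : ℝ) - μ ^ 3 / (nbr E b).card| ≤ η * (μ ^ 3 / (nbr E b).card))
    (hA : 2 * η + 9 * ε ≤ A ^ 3) (z : Fin n → Fin n → ℝ) :
    (∑ c ∈ nbr E b, ((flags E b c).card : ℝ) * pivCentred E z b c ^ 2
      ≤ A ^ 2 * ∑ c ∈ nbr E b, ((flags E b c).card : ℝ) * z b c ^ 2) ∧
    ∀ p : ℕ, 3 ≤ p →
      ∑ c ∈ nbr E b, |pivCentred E z b c| ^ p ≤ 4 * 8 ^ p * A ^ 2 * ∑ c ∈ nbr E b, |z b c| ^ p := by
  rcases (nbr E b).eq_empty_or_nonempty with h0 | h0
  · simp [h0]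
  have : Nonempty ↥(nbr E b) := h0.coe_sort
  set s := nbr E b with hs
  let adj : Matrix ↥s ↥s ℝ := Matrix.of fun x y =>
    if ({(x : Fin n), (y : Fin n)} : Finset (Fin n)) ∈ E then 1 else 0
  have hfl : ∀ x : Fin n, flags E b x = s.filter fun y => ({x, y} : Finset (Fin n)) ∈ E := by
    intro x; ext y; simp [mem_flags, hs]
  have hrowsum : ∀ (x : ↥s) (F : Fin n → ℝ),
      ∑ y : ↥s, adj x y * F y = ∑ y ∈ flags E b x, F y := by
    intro x F
    rw [hfl, sum_filter,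
      ← sum_coe_sort s fun y : Fin n => if ({(x : Fin n), y} : Finset (Fin n)) ∈ E then F y else 0]
    simp [adj]
  have hrow : ∀ x : ↥s, ∑ y, adj x y = ((flags E b x).card : ℝ) := by
    intro x
    simpa using hrowsum x fun _ => 1
  have hsym : ∀ x y, adj x y = adj y x := fun x y => by
    simp only [adj, Matrix.of_apply, Finset.pair_comm]
  have hw : ∀ x y : ↥s, ∑ a, ∑ c, adj x a * adj a c * adj c y = (linkWalks E b x y : ℝ) := by
    intro x y
    have h1 : ∀ a : ↥s, ∑ c, adj x a * adj a c * adj c y = adj x a *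
        ∑ c ∈ flags E b y, if ({(a : Fin n), c} : Finset (Fin n)) ∈ E then (1:ℝ) else 0 := by
      intro a
      rw [← hrowsum y fun c => if ({(a : Fin n), c} : Finset (Fin n)) ∈ E then (1:ℝ) else 0,
        mul_sum]
      refine sum_congr rfl fun c _ => ?_
      rw [hsym y c]
      simp only [adj, Matrix.of_apply]
      ring
    rw [sum_congr rfl fun a _ => h1 a, hrowsum x fun a => ∑ c ∈ flags E b y,
      if ({a, c} : Finset (Fin n)) ∈ E then (1:ℝ) else 0,
      ← sum_product', linkWalks, sum_boole]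
  have hdeg' : ∀ x : ↥s, |(∑ y, adj x y) - μ| ≤ ε * μ := fun x => by
    rw [hrow]; exact hdeg x x.2
  have h0' : ∀ x y, 0 ≤ adj x y := fun x y => by
    simp only [adj, Matrix.of_apply]; split_ifs <;> norm_num
  have hwalk'' : ∀ x y : ↥s, |(∑ a, ∑ c, adj x a * adj a c * adj c y) - μ ^ 3 / Fintype.card ↥s|
      ≤ η * (μ ^ 3 / Fintype.card ↥s) := fun x y => by
    rw [hw, Fintype.card_coe]; exact hwalk x x.2 y y.2
  have key2 := sq_norm_centred_walk_le adj h0' hsym hμ hε0 hε hη0 hdeg' hwalk'' hA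
    (fun x : ↥s => z b x)
  have e : ∀ x : ↥s, (centred (walk adj) (fun y => ∑ w, adj y w) *ᵥ fun y : ↥s => z b y) x
      = pivCentred E z b x := by
    intro x
    rw [centred_walk_mulVec, hrowsum x (z b)]
    simp only [hrow]
    rw [sum_coe_sort s fun y => ((flags E b y).card : ℝ) * z b y,
      sum_coe_sort s fun y => ((flags E b y).card : ℝ)]
    rfl
  simp only [e] at key2
  simp only [hrow] at key2
  rw [sum_coe_sort s fun x => ((flags E b x).card : ℝ) * pivCentred E z b x ^ 2,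
    sum_coe_sort s fun x => ((flags E b x).card : ℝ) * z b x ^ 2] at key2
  refine ⟨key2, fun p hp => ?_⟩
  have key := norm_centred_walk_le adj h0' hsym hμ hε0 hε hη0 hdeg' hwalk'' hA hp
    (fun x : ↥s => z b x)
  simp only [e] at key
  have := unweighted_le univ (fun x : ↥s => ∑ y, adj x y) (fun x => |pivCentred E z b x| ^ p)
    (fun x => |z b x| ^ p) hμ hε (by positivity) (fun x _ => hdeg' x)
    (fun _ _ => by positivity) (fun _ _ => by positivity) key
  rw [sum_coe_sort s fun x => |pivCentred E z b x| ^ p,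
    sum_coe_sort s fun x => |z b x| ^ p] at this
  linarith

/-- Contraction at one pivot, `p`-th moments. -/
theorem sum_pivCentred_pow_le_at (E : Finset (Finset (Fin n))) (b : Fin n) {μ ε η A : ℝ}
    (hμ : 0 < μ) (hε0 : 0 ≤ ε) (hε : ε ≤ 1 / 8) (hη0 : 0 ≤ η)
    (hdeg : ∀ c ∈ nbr E b, |((flags E b c).card : ℝ) - μ| ≤ ε * μ)
    (hwalk : ∀ x ∈ nbr E b, ∀ y ∈ nbr E b,
      |(linkWalks E b x y : ℝ) - μ ^ 3 / (nbr E b).card| ≤ η * (μ ^ 3 / (nbr E b).card))
    (hA : 2 * η + 9 * ε ≤ A ^ 3) {p : ℕ} (hp : 3 ≤ p) (z : Fin n → Fin n → ℝ) :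
    ∑ c ∈ nbr E b, |pivCentred E z b c| ^ p ≤ 4 * 8 ^ p * A ^ 2 * ∑ c ∈ nbr E b, |z b c| ^ p :=
  (pivCentred_le_at E b hμ hε0 hε hη0 hdeg hwalk hA z).2 p hp

/-- The centred pivot averaging contracts the `p`-th moment over directed edges. -/
theorem sum_pivCentred_pow_le (E : Finset (Finset (Fin n))) {μ ε η A : ℝ}
    (hμ : 0 < μ) (hε0 : 0 ≤ ε) (hε : ε ≤ 1 / 8) (hη0 : 0 ≤ η)
    (hdeg : ∀ b, ∀ c ∈ nbr E b, |((flags E b c).card : ℝ) - μ| ≤ ε * μ)
    (hwalk : ∀ b, ∀ x ∈ nbr E b, ∀ y ∈ nbr E b,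
      |(linkWalks E b x y : ℝ) - μ ^ 3 / (nbr E b).card| ≤ η * (μ ^ 3 / (nbr E b).card))
    (hA : 2 * η + 9 * ε ≤ A ^ 3) {p : ℕ} (hp : 3 ≤ p) (z : Fin n → Fin n → ℝ) :
    ∑ b, ∑ c ∈ nbr E b, |pivCentred E z b c| ^ p
      ≤ 4 * 8 ^ p * A ^ 2 * ∑ b, ∑ c ∈ nbr E b, |z b c| ^ p := by
  rw [mul_sum]
  exact sum_le_sum fun b _ =>
    sum_pivCentred_pow_le_at E b hμ hε0 hε hη0 (hdeg b) (hwalk b) hA hp z

/-- The centred vertex averaging contracts the `p`-th moment over vertices. -/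
theorem vertCentred_le (E : Finset (Finset (Fin n))) {μ D ε η A : ℝ}
    (hn : 0 < n) (hμ : 0 < μ) (hD : 0 < D) (hε0 : 0 ≤ ε) (hε : ε ≤ 1 / 24) (hη0 : 0 ≤ η)
    (hcodeg : ∀ b, ∀ c ∈ nbr E b, |((flags E b c).card : ℝ) - μ| ≤ ε * μ)
    (hdeg : ∀ b, |((nbr E b).card : ℝ) - D| ≤ ε * D)
    (hwalk : ∀ x y, |(graphWalks E x y : ℝ) - D ^ 3 / n| ≤ η * (D ^ 3 / n))
    (hA : 4 * η + 35 * ε ≤ A ^ 3) (u : Fin n → ℝ) :
    (∑ b, (∑ c ∈ nbr E b, ((flags E b c).card : ℝ)) * (vertAvg E u b - vertProj E u) ^ 2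
      ≤ A ^ 2 * ∑ b, (∑ c ∈ nbr E b, ((flags E b c).card : ℝ)) * u b ^ 2) ∧
    ∀ p : ℕ, 3 ≤ p →
      ∑ b, |vertAvg E u b - vertProj E u| ^ p ≤ 4 * 8 ^ p * A ^ 2 * ∑ b, |u b| ^ p := by
  have : Nonempty (Fin n) := ⟨⟨0, hn⟩⟩
  let adj : Matrix (Fin n) (Fin n) ℝ := Matrix.of fun x y =>
    if ({x, y} : Finset (Fin n)) ∈ E then ((flags E x y).card : ℝ) else 0
  have hrowsum : ∀ (x : Fin n) (F : Fin n → ℝ),
      ∑ y, adj x y * F y = ∑ y ∈ nbr E x, ((flags E x y).card : ℝ) * F y := by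
    intro x F
    simp [adj, nbr, sum_filter, ite_mul]
  have hrow : ∀ x, ∑ y, adj x y = ∑ y ∈ nbr E x, ((flags E x y).card : ℝ) := fun x => by
    simpa using hrowsum x fun _ => 1
  have hsym : ∀ x y, adj x y = adj y x := fun x y => by
    simp only [adj, Matrix.of_apply, Finset.pair_comm x y, flags_comm E x y]
  have hl : 0 ≤ (1 - ε) * μ := mul_nonneg (by linarith) hμ.le
  have hlo : ∀ x y, (if ({x, y} : Finset (Fin n)) ∈ E then (1 - ε) * μ else 0) ≤ adj x y := by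
    intro x y
    simp only [adj, Matrix.of_apply]
    split_ifs with h
    · linarith [(abs_le.1 (hcodeg x y (mem_nbr.2 h))).1]
    · exact le_rfl
  have hhi : ∀ x y, adj x y ≤ (if ({x, y} : Finset (Fin n)) ∈ E then (1 + ε) * μ else 0) := by
    intro x y
    simp only [adj, Matrix.of_apply]
    split_ifs with h
    · linarith [(abs_le.1 (hcodeg x y (mem_nbr.2 h))).2]
    · exact le_rfl
  have hadj0 : ∀ x y, 0 ≤ adj x y := fun x y => by
    simp only [adj, Matrix.of_apply]; split_ifs <;> simp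
  have hdeg' : ∀ x, |(∑ y, adj x y) - μ * D| ≤ 3 * ε * (μ * D) := by
    intro x
    rw [hrow]
    have h1 : |(∑ y ∈ nbr E x, ((flags E x y).card : ℝ)) - (nbr E x).card * μ|
        ≤ (nbr E x).card * (ε * μ) := by
      rw [← nsmul_eq_mul, ← nsmul_eq_mul, ← sum_const, ← sum_const, ← sum_sub_distrib]
      exact (abs_sum_le_sum_abs _ _).trans (sum_le_sum (hcodeg x))
    have h2 := abs_le.1 (hdeg x)
    have h3 := abs_le.1 h1
    have hDμ : 0 < μ * D := mul_pos hμ hD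
    have h4 : ((nbr E x).card : ℝ) * (ε * μ) ≤ 2 * D * (ε * μ) :=
      mul_le_mul_of_nonneg_right (by nlinarith) (mul_nonneg hε0 hμ.le)
    rw [abs_le]
    constructor <;> nlinarith
  -- the weighted 3-walk count
  let ind : Fin n → Fin n → ℝ := fun x y => if ({x, y} : Finset (Fin n)) ∈ E then 1 else 0
  have hcount : ∀ x y, ∑ a, ∑ c, ind x a * ind a c * ind c y = (graphWalks E x y : ℝ) := by
    intro x y
    rw [graphWalks, ← sum_boole, sum_product, nbr, sum_filter]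
    refine sum_congr rfl fun a _ => ?_
    simp only [nbr, sum_filter, ind, Finset.pair_comm y]
    split_ifs with h
    · refine sum_congr rfl fun c _ => ?_
      split_ifs <;> simp
    · simp
  have hwalk' : ∀ x y, |(∑ a, ∑ c, adj x a * adj a c * adj c y) - (μ * D) ^ 3 / n|
      ≤ (2 * η + 4 * ε) * ((μ * D) ^ 3 / n) := by
    intro x y
    have e : ∀ s : ℝ, (s * μ) ^ 3 * (graphWalks E x y : ℝ) =
        ∑ a, ∑ c, (s * μ * ind x a) * (s * μ * ind a c) * (s * μ * ind c y) := by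
      intro s
      rw [← hcount]
      simp only [mul_sum]
      exact sum_congr rfl fun a _ => sum_congr rfl fun c _ => by ring
    have ei : ∀ (r : ℝ) x y, r * ind x y = if ({x, y} : Finset (Fin n)) ∈ E then r else 0 := by
      intro r x y; simp [ind]
    have hup : (∑ a, ∑ c, adj x a * adj a c * adj c y)
        ≤ ((1 + ε) * μ) ^ 3 * graphWalks E x y := by
      rw [e]
      simp only [ei]
      exact sum_le_sum fun a _ => sum_le_sum fun c _ =>
        mul_le_mul (mul_le_mul (hhi _ _) (hhi _ _) (hadj0 _ _)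
          ((hadj0 _ _).trans (hhi _ _))) (hhi _ _) (hadj0 _ _)
          (mul_nonneg ((hadj0 _ _).trans (hhi _ _)) ((hadj0 _ _).trans (hhi _ _)))
    have hdn : ((1 - ε) * μ) ^ 3 * graphWalks E x y
        ≤ ∑ a, ∑ c, adj x a * adj a c * adj c y := by
      rw [e]
      simp only [ei]
      have h00 : ∀ x y, 0 ≤ (if ({x, y} : Finset (Fin n)) ∈ E then (1 - ε) * μ else 0) :=
        fun x y => by split_ifs <;> [exact hl; exact le_rfl]
      exact sum_le_sum fun a _ => sum_le_sum fun c _ =>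
        mul_le_mul (mul_le_mul (hlo _ _) (hlo _ _) (h00 _ _) (hadj0 _ _)) (hlo _ _) (h00 _ _)
          (mul_nonneg (hadj0 _ _) (hadj0 _ _))
    set M := D ^ 3 / (n : ℝ)
    have hM : 0 ≤ μ ^ 3 * M := by positivity
    have eM : (μ * D) ^ 3 / (n : ℝ) = μ ^ 3 * M := by simp only [M]; ring
    have hW := abs_le.1 (hwalk x y)
    have p1 : (1 + ε) ^ 3 ≤ 1 + 4 * ε := by
      nlinarith [mul_nonneg hε0 (show (0:ℝ) ≤ 1 - 3 * ε - ε ^ 2 by nlinarith)]
    have p2 : 1 - 3 * ε ≤ (1 - ε) ^ 3 := by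
      nlinarith [mul_nonneg (sq_nonneg ε) (show (0:ℝ) ≤ 3 - ε by linarith)]
    have p3 : (1 - ε) ^ 3 ≤ 1 := pow_le_one₀ (by linarith) (by linarith)
    rw [eM, abs_le]
    constructor
    · have a1 : ((1 - ε) * μ) ^ 3 * ((1 - η) * M) ≤ ((1 - ε) * μ) ^ 3 * graphWalks E x y :=
        mul_le_mul_of_nonneg_left (by linarith) (pow_nonneg hl 3)
      have a2 : 0 ≤ μ ^ 3 * M * ((1 - ε) ^ 3 * (1 - η) - (1 - 2 * η - 4 * ε)) :=
        mul_nonneg hM (by nlinarith)
      nlinarith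
    · have a1 : ((1 + ε) * μ) ^ 3 * graphWalks E x y ≤ ((1 + ε) * μ) ^ 3 * ((1 + η) * M) :=
        mul_le_mul_of_nonneg_left (by linarith) (by positivity)
      have a2 : 0 ≤ μ ^ 3 * M * ((1 + 2 * η + 4 * ε) - (1 + ε) ^ 3 * (1 + η)) :=
        mul_nonneg hM (by nlinarith [mul_nonneg hε0 hη0])
      nlinarith
  have key2 := sq_norm_centred_walk_le adj hadj0 hsym (mul_pos hμ hD) (by linarith)
    (by linarith : 3 * ε ≤ 1 / 8) (by linarith : (0:ℝ) ≤ 2 * η + 4 * ε) hdeg'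
    (fun x y => by rw [Fintype.card_fin]; exact hwalk' x y) (A := A) (by linarith) u
  have e : ∀ x, (centred (walk adj) (fun y => ∑ w, adj y w) *ᵥ u) x
      = vertAvg E u x - vertProj E u := by
    intro x
    rw [centred_walk_mulVec, hrowsum]
    simp only [hrow]
    rfl
  simp only [e] at key2
  simp only [hrow] at key2
  refine ⟨key2, fun p hp => ?_⟩
  have key := norm_centred_walk_le adj hadj0 hsym (mul_pos hμ hD) (by linarith)
    (by linarith : 3 * ε ≤ 1 / 8) (by linarith : (0:ℝ) ≤ 2 * η + 4 * ε) hdeg'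
    (fun x y => by rw [Fintype.card_fin]; exact hwalk' x y) (A := A) (by linarith) hp u
  simp only [e] at key
  have := unweighted_le univ (fun x => ∑ y, adj x y) (fun x => |vertAvg E u x - vertProj E u| ^ p)
    (fun x => |u x| ^ p) (mul_pos hμ hD) (by linarith : 3 * ε ≤ 1 / 8) (by positivity)
    (fun x _ => hdeg' x) (fun _ _ => by positivity) (fun _ _ => by positivity) key
  linarith

/-- The centred vertex averaging contracts the `p`-th moment over vertices. -/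
theorem sum_vertCentred_pow_le (E : Finset (Finset (Fin n))) {μ D ε η A : ℝ}
    (hn : 0 < n) (hμ : 0 < μ) (hD : 0 < D) (hε0 : 0 ≤ ε) (hε : ε ≤ 1 / 24) (hη0 : 0 ≤ η)
    (hcodeg : ∀ b, ∀ c ∈ nbr E b, |((flags E b c).card : ℝ) - μ| ≤ ε * μ)
    (hdeg : ∀ b, |((nbr E b).card : ℝ) - D| ≤ ε * D)
    (hwalk : ∀ x y, |(graphWalks E x y : ℝ) - D ^ 3 / n| ≤ η * (D ^ 3 / n))
    (hA : 4 * η + 35 * ε ≤ A ^ 3) {p : ℕ} (hp : 3 ≤ p) (u : Fin n → ℝ) :
    ∑ b, |vertAvg E u b - vertProj E u| ^ p ≤ 4 * 8 ^ p * A ^ 2 * ∑ b, |u b| ^ p :=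
  (vertCentred_le E hn hμ hD hε0 hε hη0 hcodeg hdeg hwalk hA u).2 p hp

end Vale.Agent.P046.Contract
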