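import Mathlib

/-!
# Finite weighted Marcinkiewicz interpolation between L2 and sup norm
-/

namespace Vale.Agent.P046

open Finset

lemma sum_two_zpow_le (K : Finset ℤ) :
    ∀ r : ℝ, 0 ≤ r → (∀ k ∈ K, (2:ℝ) ^ k ≤ r) → ∑ k ∈ K, (2:ℝ) ^ k ≤ 2 * r := by
  induction K using Finset.induction_on_max with
  | empty => intro r hr _; simp [hr]
  | insert a s hlt ih =>
    intro r _ hK
    have hna : a ∉ s := fun h => lt_irrefl a (hlt a h)
    rw [sum_insert hna]
    have h1 : ∑ k ∈ s, (2:ℝ) ^ k ≤ 2 * (2:ℝ) ^ (a - 1) :=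
      ih _ (by positivity) (fun k hk => zpow_le_zpow_right₀ (by norm_num) (by linarith [hlt k hk]))
    have h2 : 2 * (2:ℝ) ^ (a - 1) = (2:ℝ) ^ a := by
      rw [zpow_sub_one₀ (by norm_num)]; ring
    have h3 := hK a (mem_insert_self a s)
    linarith

variable {X Y : Type*} [Fintype X] [Fintype Y]

/-- An operator with L2 bound `A` and sup-norm bound `B` has Lp bound
`(2 * 4^p * A^2 * B^(p-2))^(1/p)`, for every natural `p ≥ 3`. -/
theorem marcinkiewicz (T : (X → ℝ) →ₗ[ℝ] (Y → ℝ)) (w : X → ℝ) (v : Y → ℝ)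
    (hw : ∀ x, 0 ≤ w x) (hv : ∀ y, 0 ≤ v y) {A B : ℝ} (hB : 0 < B)
    (h2 : ∀ f : X → ℝ, ∑ y, v y * (T f y) ^ 2 ≤ A ^ 2 * ∑ x, w x * f x ^ 2)
    (hinf : ∀ (f : X → ℝ) (b : ℝ), (∀ x, |f x| ≤ b) → ∀ y, |T f y| ≤ B * b)
    {p : ℕ} (hp : 3 ≤ p) (f : X → ℝ) :
    ∑ y, v y * |T f y| ^ p ≤ 2 * 4 ^ p * A ^ 2 * B ^ (p - 2) * ∑ x, w x * |f x| ^ p := by
  classical
  let L : Y → ℤ := fun y => Int.log 2 |T f y|
  let S := (univ : Finset Y).filter (fun y => T f y ≠ 0)
  let K := S.image L
  let a : ℤ → ℝ := fun k => (2:ℝ) ^ (k - 1)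
  have ha : ∀ k, 0 < a k := fun k => zpow_pos (by norm_num) _
  let h : ℤ → X → ℝ := fun k x => if a k < B * |f x| then f x else 0
  have hS : ∑ y, v y * |T f y| ^ p = ∑ y ∈ S, v y * |T f y| ^ p := by
    symm
    apply sum_subset (filter_subset _ _)
    intro y _ hy
    simp only [S, mem_filter, mem_univ, true_and, not_not] at hy
    simp [hy, zero_pow (by omega : p ≠ 0)]
  -- at level `k` the truncated tail dominates
  have hpt : ∀ y ∈ S, |T f y| ^ p ≤ 4 ^ p * a (L y) ^ (p - 2) * (T (h (L y)) y) ^ 2 := by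
    intro y hy
    simp only [S, mem_filter, mem_univ, true_and] at hy
    have hpos : 0 < |T f y| := abs_pos.2 hy
    have hlo : 2 * a (L y) ≤ |T f y| := by
      have := Int.zpow_log_le_self (b := 2) (by norm_num) hpos
      simp only [Nat.cast_ofNat] at this
      refine le_trans ?_ this
      simp only [a, L]
      rw [zpow_sub_one₀ (by norm_num : (2:ℝ) ≠ 0)]
      exact le_of_eq (by ring)
    have hhi : |T f y| ≤ 4 * a (L y) := by
      have := Int.lt_zpow_succ_log_self (b := 2) (by norm_num) |T f y|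
      simp only [Nat.cast_ofNat] at this
      refine this.le.trans ?_
      simp only [a, L]
      rw [zpow_sub_one₀ (by norm_num : (2:ℝ) ≠ 0), zpow_add_one₀ (by norm_num : (2:ℝ) ≠ 0)]
      exact le_of_eq (by ring)
    have hg : |T (f - h (L y)) y| ≤ a (L y) := by
      have := hinf (f - h (L y)) (a (L y) / B) (fun x => by
        simp only [h, Pi.sub_apply]
        split_ifs with hx
        · simpa using (div_pos (ha _) hB).le
        · rw [sub_zero, le_div_iff₀ hB]
          linarith [not_lt.1 hx]) y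
      rwa [mul_div_cancel₀ _ hB.ne'] at this
    rw [map_sub, Pi.sub_apply] at hg
    have hh : a (L y) ≤ |T (h (L y)) y| := by
      have := abs_sub_abs_le_abs_sub (T f y) (T (h (L y)) y)
      linarith
    calc |T f y| ^ p ≤ (4 * a (L y)) ^ p := by gcongr
      _ = 4 ^ p * a (L y) ^ (p - 2) * a (L y) ^ 2 := by
            rw [mul_pow, mul_assoc, ← pow_add, Nat.sub_add_cancel (by omega)]
      _ ≤ 4 ^ p * a (L y) ^ (p - 2) * (T (h (L y)) y) ^ 2 := by
            apply mul_le_mul_of_nonneg_left _ (by have := ha (L y); positivity)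
            rw [← sq_abs (T _ y)]
            exact pow_le_pow_left₀ (ha _).le hh 2
  have hx : ∀ x, ∑ k ∈ K, a k ^ (p - 2) * h k x ^ 2 ≤ 2 * B ^ (p - 2) * |f x| ^ p := by
    intro x
    set r := B * |f x| with hr
    have hr0 : 0 ≤ r := by positivity
    have e : ∑ k ∈ K, a k ^ (p - 2) * h k x ^ 2
        = (∑ k ∈ K.filter (fun k => a k < r), a k ^ (p - 2)) * f x ^ 2 := by
      rw [sum_mul, sum_filter]
      refine sum_congr rfl (fun k _ => ?_)
      simp only [h, ← hr]
      split_ifs <;> simp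
    rw [e]
    have hs : ∑ k ∈ K.filter (fun k => a k < r), a k ≤ 2 * r := by
      have hinj : Set.InjOn (fun k : ℤ => k - 1) (K.filter (fun k => a k < r)) :=
        fun _ _ _ _ hkl => by simpa using hkl
      have := sum_two_zpow_le ((K.filter (fun k => a k < r)).image (fun k => k - 1)) r hr0 (by
        simp only [mem_image, mem_filter]
        rintro j ⟨k, ⟨-, hk⟩, rfl⟩
        exact hk.le)
      rwa [sum_image hinj] at this
    have hsum : ∑ k ∈ K.filter (fun k => a k < r), a k ^ (p - 2) ≤ 2 * r ^ (p - 2) := by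
      have e1 : p - 2 = (p - 3) + 1 := by omega
      calc ∑ k ∈ K.filter (fun k => a k < r), a k ^ (p - 2)
          ≤ ∑ k ∈ K.filter (fun k => a k < r), r ^ (p - 3) * a k := by
            refine sum_le_sum (fun k hk => ?_)
            rw [e1, pow_succ]
            exact mul_le_mul_of_nonneg_right
              (pow_le_pow_left₀ (ha k).le (mem_filter.1 hk).2.le _) (ha k).le
        _ ≤ r ^ (p - 3) * (2 * r) := by
            rw [← mul_sum]; exact mul_le_mul_of_nonneg_left hs (by positivity)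
        _ = 2 * r ^ (p - 2) := by rw [e1, pow_succ]; ring
    refine (mul_le_mul_of_nonneg_right hsum (sq_nonneg _)).trans (le_of_eq ?_)
    rw [hr, mul_pow, ← sq_abs (f x)]
    have : |f x| ^ p = |f x| ^ (p - 2) * |f x| ^ 2 := by
      rw [← pow_add, Nat.sub_add_cancel (by omega)]
    rw [this]; ring
  rw [hS, ← sum_fiberwise_of_maps_to (fun y hy => mem_image_of_mem L hy)]
  calc ∑ k ∈ K, ∑ y ∈ S.filter (fun y => L y = k), v y * |T f y| ^ p
      ≤ ∑ k ∈ K, ∑ y, 4 ^ p * a k ^ (p - 2) * (v y * (T (h k) y) ^ 2) := by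
        refine sum_le_sum (fun k _ => ?_)
        refine le_trans (sum_le_sum (fun y hy => ?_))
          (sum_le_sum_of_subset_of_nonneg (subset_univ (S.filter (fun y => L y = k)))
            (fun y _ _ => by have := ha k; have := hv y; positivity))
        obtain ⟨hyS, rfl⟩ := mem_filter.1 hy
        calc v y * |T f y| ^ p
            ≤ v y * (4 ^ p * a (L y) ^ (p - 2) * (T (h (L y)) y) ^ 2) :=
              mul_le_mul_of_nonneg_left (hpt y hyS) (hv y)
          _ = _ := by ring
    _ ≤ ∑ k ∈ K, 4 ^ p * a k ^ (p - 2) * (A ^ 2 * ∑ x, w x * h k x ^ 2) := by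
        refine sum_le_sum (fun k _ => ?_)
        rw [← mul_sum]
        exact mul_le_mul_of_nonneg_left (h2 _) (by have := ha k; positivity)
    _ = 4 ^ p * A ^ 2 * ∑ x, w x * ∑ k ∈ K, a k ^ (p - 2) * h k x ^ 2 := by
        simp only [mul_sum]
        rw [sum_comm]
        exact sum_congr rfl (fun x _ => sum_congr rfl (fun k _ => by ring))
    _ ≤ 4 ^ p * A ^ 2 * ∑ x, w x * (2 * B ^ (p - 2) * |f x| ^ p) := by
        refine mul_le_mul_of_nonneg_left (sum_le_sum (fun x _ => ?_)) (by positivity)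
        exact mul_le_mul_of_nonneg_left (hx x) (hw x)
    _ = _ := by
        simp only [mul_sum]
        exact sum_congr rfl (fun x _ => by ring)

end Vale.Agent.P046
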