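import Vale.Agent.P046.Contract.Interp

/-!
# Contraction of the centred averaging operator of a reversible walk

`k` is a reversible Markov kernel for the weights `π`; `centred k π` is averaging by `k`
minus the stationary projection.
-/

namespace Vale.Agent.P046

open Finset Matrix

variable {X : Type*} [Fintype X]

/-- `k` minus the stationary projection for the weights `π`. -/
noncomputable def centred (k : Matrix X X ℝ) (π : X → ℝ) : Matrix X X ℝ :=
  Matrix.of fun x y => k x y - π y / ∑ z, π z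

/-- Schur test for a kernel which is symmetric for the weights `π`. -/
lemma schur_symm (π : X → ℝ) (hπ : ∀ x, 0 ≤ π x) (K : Matrix X X ℝ)
    (hsym : ∀ x y, π x * K x y = π y * K y x) {R : ℝ}
    (hR : ∀ x, ∑ y, |K x y| ≤ R) (f : X → ℝ) :
    ∑ x, π x * (K *ᵥ f) x ^ 2 ≤ R ^ 2 * ∑ x, π x * f x ^ 2 := by
  rcases isEmpty_or_nonempty X with hX | ⟨⟨x₀⟩⟩
  · simp
  have hR0 : 0 ≤ R := (sum_nonneg fun _ _ => abs_nonneg _).trans (hR x₀)
  have h1 : ∀ x, (K *ᵥ f) x ^ 2 ≤ R * ∑ y, |K x y| * f y ^ 2 := by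
    intro x
    have hcs := sum_sq_le_sum_mul_sum_of_sq_le_mul univ (r := fun y => K x y * f y)
      (f := fun y => |K x y|) (g := fun y => |K x y| * f y ^ 2)
      (fun y _ => abs_nonneg _) (fun y _ => by positivity)
      (fun y _ => le_of_eq (by rw [mul_pow, ← sq_abs (K x y)]; ring))
    exact hcs.trans (mul_le_mul_of_nonneg_right (hR x) (sum_nonneg fun y _ => by positivity))
  calc ∑ x, π x * (K *ᵥ f) x ^ 2
      ≤ ∑ x, π x * (R * ∑ y, |K x y| * f y ^ 2) :=
        sum_le_sum fun x _ => mul_le_mul_of_nonneg_left (h1 x) (hπ x)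
    _ = R * ∑ y, (π y * ∑ x, |K y x|) * f y ^ 2 := by
        simp only [mul_sum, sum_mul]
        rw [sum_comm]
        refine sum_congr rfl fun y _ => sum_congr rfl fun x _ => ?_
        have : π x * |K x y| = π y * |K y x| := by
          have := congrArg abs (hsym x y)
          rwa [abs_mul, abs_mul, abs_of_nonneg (hπ x), abs_of_nonneg (hπ y)] at this
        calc π x * (R * (|K x y| * f y ^ 2)) = R * ((π x * |K x y|) * f y ^ 2) := by ring
          _ = _ := by rw [this]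
    _ ≤ R * ∑ y, (π y * R) * f y ^ 2 := by
        refine mul_le_mul_of_nonneg_left (sum_le_sum fun y _ => ?_) hR0
        exact mul_le_mul_of_nonneg_right (mul_le_mul_of_nonneg_left (hR y) (hπ y)) (sq_nonneg _)
    _ = _ := by
        simp only [mul_sum]
        exact sum_congr rfl fun y _ => by ring

variable [DecidableEq X] in
/-- For a symmetric operator the norm cubed is at most the norm of the cube. -/
lemma sq_norm_le_of_cube (π : X → ℝ) (hπ : ∀ x, 0 ≤ π x) (Q : Matrix X X ℝ)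
    (hsym : ∀ x y, π x * Q x y = π y * Q y x) {A : ℝ}
    (h3 : ∀ f, ∑ x, π x * ((Q ^ 3) *ᵥ f) x ^ 2 ≤ (A ^ 3) ^ 2 * ∑ x, π x * f x ^ 2)
    (f : X → ℝ) :
    ∑ x, π x * (Q *ᵥ f) x ^ 2 ≤ A ^ 2 * ∑ x, π x * f x ^ 2 := by
  let N : (X → ℝ) → ℝ := fun g => ∑ x, π x * g x ^ 2
  have hN : ∀ g, 0 ≤ N g := fun g => sum_nonneg fun x _ => mul_nonneg (hπ x) (sq_nonneg _)
  have adj : ∀ g h : X → ℝ,
      ∑ x, π x * (Q *ᵥ g) x * h x = ∑ x, π x * g x * (Q *ᵥ h) x := by
    intro g h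
    simp only [Matrix.mulVec, dotProduct, mul_sum, sum_mul]
    rw [sum_comm]
    refine sum_congr rfl fun x _ => sum_congr rfl fun y _ => ?_
    calc π y * (Q y x * g x) * h y = (π y * Q y x) * (g x * h y) := by ring
      _ = (π x * Q x y) * (g x * h y) := by rw [hsym]
      _ = _ := by ring
  have conv : ∀ g, N (Q *ᵥ g) ^ 2 ≤ N g * N (Q *ᵥ (Q *ᵥ g)) := by
    intro g
    have e : N (Q *ᵥ g) = ∑ x, π x * g x * (Q *ᵥ (Q *ᵥ g)) x := by
      rw [← adj]
      exact sum_congr rfl fun x _ => by ring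
    rw [e]
    exact sum_sq_le_sum_mul_sum_of_sq_le_mul univ
      (r := fun x => π x * g x * (Q *ᵥ (Q *ᵥ g)) x)
      (f := fun x => π x * g x ^ 2) (g := fun x => π x * (Q *ᵥ (Q *ᵥ g)) x ^ 2)
      (fun x _ => mul_nonneg (hπ x) (sq_nonneg _))
      (fun x _ => mul_nonneg (hπ x) (sq_nonneg _)) (fun x _ => le_of_eq (by ring))
  have e3 : (Q ^ 3) *ᵥ f = Q *ᵥ (Q *ᵥ (Q *ᵥ f)) := by
    simp [pow_succ, Matrix.mulVec_mulVec, Matrix.mul_assoc]
  set n0 := N f with hn0
  set n1 := N (Q *ᵥ f) with hn1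
  set n2 := N (Q *ᵥ (Q *ᵥ f))
  set n3 := N (Q *ᵥ (Q *ᵥ (Q *ᵥ f)))
  have c1 : n1 ^ 2 ≤ n0 * n2 := conv f
  have c2 : n2 ^ 2 ≤ n1 * n3 := conv (Q *ᵥ f)
  have c3 : n3 ≤ (A ^ 3) ^ 2 * n0 := by
    have := h3 f
    rwa [e3] at this
  show n1 ≤ A ^ 2 * n0
  rcases (hN (Q *ᵥ f)).eq_or_lt with h | h
  · rw [hn1, ← h]
    exact mul_nonneg (sq_nonneg A) (hN f)
  have hn0' : 0 ≤ n0 := hN f
  have hn2 : 0 ≤ n2 := hN _
  have h4 : n1 * n1 ^ 3 ≤ n1 * (A ^ 2 * n0) ^ 3 := by
    calc n1 * n1 ^ 3 = (n1 ^ 2) ^ 2 := by ring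
      _ ≤ (n0 * n2) ^ 2 := pow_le_pow_left₀ (sq_nonneg _) c1 2
      _ = n0 ^ 2 * n2 ^ 2 := by ring
      _ ≤ n0 ^ 2 * (n1 * ((A ^ 3) ^ 2 * n0)) :=
          mul_le_mul_of_nonneg_left (c2.trans (mul_le_mul_of_nonneg_left c3 h.le)) (sq_nonneg _)
      _ = _ := by ring
  exact le_of_pow_le_pow_left₀ (by norm_num : (3:ℕ) ≠ 0) (by positivity)
    (le_of_mul_le_mul_left h4 h)

variable (k : Matrix X X ℝ) (π : X → ℝ)

lemma centred_symm (hsym : ∀ x y, π x * k x y = π y * k y x) (x y : X) :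
    π x * centred k π x y = π y * centred k π y x := by
  simp only [centred, Matrix.of_apply, mul_sub, hsym x y]
  ring

variable [DecidableEq X] in
/-- The cube of the centred kernel is the centred cube of the kernel. -/
lemma centred_cube (hπ : 0 < ∑ z, π z) (hsym : ∀ x y, π x * k x y = π y * k y x)
    (hrow : ∀ x, ∑ y, k x y = 1) :
    centred k π ^ 3 = centred (k ^ 3) π := by
  let J : Matrix X X ℝ := Matrix.of fun _ y => π y / ∑ z, π z
  have hc : ∀ m : Matrix X X ℝ, centred m π = m - J := fun m => by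
    ext x y; simp [centred, J]
  have hkJ : k * J = J := by
    ext x y
    simp [Matrix.mul_apply, J, ← sum_mul, hrow]
  have hJk : J * k = J := by
    ext x y
    simp only [Matrix.mul_apply, J, Matrix.of_apply, div_mul_eq_mul_div, ← sum_div]
    congr 1
    calc ∑ z, π z * k z y = ∑ z, π y * k y z := sum_congr rfl fun z _ => hsym z y
      _ = π y := by rw [← mul_sum, hrow, mul_one]
  have hJJ : J * J = J := by
    ext x y
    simp only [Matrix.mul_apply, J, Matrix.of_apply, ← sum_mul, ← sum_div]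
    rw [div_self hπ.ne', one_mul]
  rw [hc, hc]
  simp only [pow_succ, pow_zero, one_mul]
  simp only [sub_mul, mul_sub, hkJ, hJk, hJJ, Matrix.mul_assoc]
  abel

/-- Sup-norm bound 2 for the centred kernel. -/
lemma abs_centred_mulVec_le (hπ0 : ∀ x, 0 ≤ π x) (hπ : 0 < ∑ z, π z)
    (hk : ∀ x y, 0 ≤ k x y) (hrow : ∀ x, ∑ y, k x y = 1) (f : X → ℝ) {b : ℝ}
    (hb : ∀ x, |f x| ≤ b) (x : X) : |(centred k π *ᵥ f) x| ≤ 2 * b := by
  calc |(centred k π *ᵥ f) x| ≤ ∑ y, |centred k π x y * f y| := abs_sum_le_sum_abs _ _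
    _ ≤ ∑ y, (k x y + π y / ∑ z, π z) * b := by
        refine sum_le_sum fun y _ => ?_
        rw [abs_mul]
        have h1 : 0 ≤ π y / ∑ z, π z := div_nonneg (hπ0 y) hπ.le
        refine mul_le_mul ?_ (hb y) (abs_nonneg _) (by linarith [hk x y])
        simp only [centred, Matrix.of_apply]
        exact (abs_sub _ _).trans (by rw [abs_of_nonneg (hk x y), abs_of_nonneg h1])
    _ = 2 * b := by
        rw [← sum_mul, sum_add_distrib, hrow, ← sum_div, div_self hπ.ne']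
        ring

variable [DecidableEq X] in
/-- L2 contraction: if every row of `k^3 - π` has absolute sum at most `A^3`, then the centred
walk contracts the weighted L2 norm by `A`. -/
theorem sq_norm_centred_le (hπ0 : ∀ x, 0 ≤ π x) (hπ : 0 < ∑ z, π z)
    (hsym : ∀ x y, π x * k x y = π y * k y x) (hrow : ∀ x, ∑ y, k x y = 1) {A : ℝ}
    (hA : ∀ x, ∑ y, |centred (k ^ 3) π x y| ≤ A ^ 3) (f : X → ℝ) :
    ∑ x, π x * (centred k π *ᵥ f) x ^ 2 ≤ A ^ 2 * ∑ x, π x * f x ^ 2 := by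
  refine sq_norm_le_of_cube π hπ0 _ (centred_symm k π hsym) (fun g => ?_) f
  rw [centred_cube k π hπ hsym hrow]
  refine schur_symm π hπ0 _ (fun x y => ?_) hA g
  have hs3 : ∀ x y, π x * (k ^ 3) x y = π y * (k ^ 3) y x := by
    intro x y
    simp only [pow_succ, pow_zero, one_mul, Matrix.mul_apply, sum_mul, mul_sum]
    rw [sum_comm]
    refine sum_congr rfl fun a _ => sum_congr rfl fun b _ => ?_
    calc π x * (k x a * k a b * k b y) = (π x * k x a) * k a b * k b y := by ring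
      _ = k a x * (π a * k a b) * k b y := by rw [hsym x a]; ring
      _ = k a x * k b a * (π b * k b y) := by rw [hsym a b]; ring
      _ = π y * (k y b * k b a * k a x) := by rw [hsym b y]; ring
  exact centred_symm (k ^ 3) π hs3 x y

variable [DecidableEq X] in
/-- Lp contraction of the centred walk: if every row of `k^3 - π` has absolute sum at most `A^3`,
then `∑ π |Pi f|^p ≤ 2 * 8^p * A^2 * ∑ π |f|^p`. -/
theorem norm_centred_le (hπ0 : ∀ x, 0 ≤ π x) (hπ : 0 < ∑ z, π z)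
    (hsym : ∀ x y, π x * k x y = π y * k y x) (hk : ∀ x y, 0 ≤ k x y)
    (hrow : ∀ x, ∑ y, k x y = 1) {A : ℝ}
    (hA : ∀ x, ∑ y, |centred (k ^ 3) π x y| ≤ A ^ 3) {p : ℕ} (hp : 3 ≤ p) (f : X → ℝ) :
    ∑ x, π x * |(centred k π *ᵥ f) x| ^ p ≤ 2 * 8 ^ p * A ^ 2 * ∑ x, π x * |f x| ^ p := by
  have h := marcinkiewicz (Matrix.mulVecLin (centred k π)) π π hπ0 hπ0 two_pos
    (sq_norm_centred_le k π hπ0 hπ hsym hrow hA)
    (fun g b hb => abs_centred_mulVec_le k π hπ0 hπ hk hrow g hb) hp f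
  refine h.trans (mul_le_mul_of_nonneg_right ?_
    (sum_nonneg fun x _ => mul_nonneg (hπ0 x) (by positivity)))
  have h8 : (8:ℝ) ^ p = 4 ^ p * 2 ^ p := by rw [← mul_pow]; norm_num
  have h2 : (2:ℝ) ^ (p - 2) ≤ 2 ^ p := pow_le_pow_right₀ (by norm_num) (Nat.sub_le p 2)
  rw [h8]
  calc 2 * 4 ^ p * A ^ 2 * 2 ^ (p - 2) ≤ 2 * 4 ^ p * A ^ 2 * (2:ℝ) ^ p :=
        mul_le_mul_of_nonneg_left h2 (by positivity)
    _ = _ := by ring

end Vale.Agent.P046
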